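import Vale.Agent.P366.H474.NA4a

/-! [A4], second part: a sequence of smooth functions on the sphere all of whose iterated
rotational derivatives are bounded in the mean square is bounded uniformly. -/

open MeasureTheory Metric Filter Topology Set
open scoped ContDiff

noncomputable section
namespace Vale.Agent.P366.H353.N

open Vale.Agent.P366 (sphI sphM pd E)

variable {n : ℕ}

/-- A closed annulus. -/
def Ann (n : ℕ) : Set (E n) := {x | 1 / 4 ≤ ‖x‖ ^ 2 ∧ ‖x‖ ^ 2 ≤ 4}

lemma Ann_closed : IsClosed (Ann n) :=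
  (isClosed_le continuous_const (continuous_norm.pow 2)).inter
    (isClosed_le (continuous_norm.pow 2) continuous_const)

lemma Ann_ne {x : E n} (hx : x ∈ Ann n) : x ≠ 0 := by
  rintro rfl
  have := hx.1
  norm_num at this

lemma zero_nAnn : (0 : E n) ∉ Ann n := fun h => Ann_ne h rfl

lemma Ann_compact : IsCompact (Ann n) := by
  refine (isCompact_closedBall (0 : E n) 2).of_isClosed_subset Ann_closed fun x hx => ?_
  rw [mem_closedBall_zero_iff]
  nlinarith [hx.2, norm_nonneg x]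

/-- Smooth functions supported in the annulus. -/
structure Cf (ψ : E n → ℝ) : Prop where
  sm : ContDiff ℝ ∞ ψ
  z : ∀ x, x ∉ Ann n → ψ x = 0

lemma Cf.ev {ψ : E n → ℝ} (h : Cf ψ) {x : E n} (hx : x ∉ Ann n) : ψ =ᶠ[𝓝 x] fun _ => 0 :=
  (Ann_closed.isOpen_compl.mem_nhds hx : (Ann n)ᶜ ∈ 𝓝 x) |> fun h' =>
    Filter.mem_of_superset h' fun y hy => h.z y hy

lemma Cf.pd {ψ : E n → ℝ} (h : Cf ψ) (i : Fin n) : Cf (pd i ψ) :=
  ⟨pd_contDiff h.sm i, fun x hx => by
    rw [Vale.Agent.P366.pd_congr (h.ev hx) i]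
    exact Vale.Agent.P366.pd_const 0 x i⟩

lemma Cf.mulSm {ψ g : E n → ℝ} (h : Cf ψ) (hg : Sm g) : Cf fun x => ψ x * g x := by
  refine ⟨contDiff_iff_contDiffAt.2 fun x => ?_, fun x hx => by simp [h.z x hx]⟩
  by_cases hx : x ∈ Ann n
  · exact h.sm.contDiffAt.mul (hg x (Ann_ne hx))
  · have e : (fun x => ψ x * g x) =ᶠ[𝓝 x] fun _ => (0 : ℝ) :=
      (h.ev hx).mono fun y hy => by simp [hy]
    exact contDiffAt_const.congr_of_eventuallyEq e

lemma Cf.zero : Cf (fun _ : E n => (0 : ℝ)) := ⟨contDiff_const, fun _ _ => rfl⟩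

lemma Cf.add {ψ φ : E n → ℝ} (h : Cf ψ) (h' : Cf φ) : Cf fun x => ψ x + φ x :=
  ⟨h.sm.add h'.sm, fun x hx => by simp [h.z x hx, h'.z x hx]⟩

lemma Cf.compact {ψ : E n → ℝ} (h : Cf ψ) : HasCompactSupport ψ :=
  HasCompactSupport.intro Ann_compact h.z

lemma Cf.integrable {ψ : E n → ℝ} (h : Cf ψ) : Integrable ψ :=
  h.sm.continuous.integrable_of_hasCompactSupport h.compact

variable [Fact (3 ≤ n)]

/-- Differential operators with coefficients in `Cf`. -/
inductive Good : (QA n → E n → ℝ) → Prop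
  | zero : Good fun _ _ => 0
  | add {T U : QA n → E n → ℝ} : Good T → Good U → Good fun h x => T h x + U h x
  | base {ψ : E n → ℝ} (hψ : Cf ψ) (w : List (Fin n × Fin n)) :
      Good fun h x => ψ x * ((SA n).Rw w h : E n → ℝ) x

lemma Good.sum {ι : Type*} (s : Finset ι) {T : ι → QA n → E n → ℝ} (hT : ∀ i, Good (T i)) :
    Good fun h x => ∑ i ∈ s, T i h x := by
  classical
  induction s using Finset.induction_on with
  | empty => simpa using Good.zero
  | insert a s ha ih =>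
    have e : (fun (h : QA n) x => ∑ i ∈ insert a s, T i h x) =
        fun h x => T a h x + ∑ i ∈ s, T i h x := by
      funext h x
      rw [Finset.sum_insert ha]
    rw [e]
    exact (hT a).add ih

lemma Good.cf {T : QA n → E n → ℝ} (hT : Good T) (h : QA n) : Cf (T h) := by
  induction hT with
  | zero => exact Cf.zero
  | add _ _ h1 h2 => exact h1.add h2
  | base hψ w => exact hψ.mulSm ((SA n).Rw w h).2.sm

omit [Fact (3 ≤ n)] in
/-- the gradient of a function of degree zero in terms of rotation fields -/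
lemma pd_rot {g : E n → ℝ} (hg : Q g) {x : E n} (hx : x ≠ 0) (i : Fin n) :
    pd i g x = ∑ k, x k / ‖x‖ ^ 2 * Rot k i g x := by
  have h0 : ‖x‖ ^ 2 ≠ 0 := pow_ne_zero 2 (norm_ne_zero_iff.2 hx)
  have h1 : ∑ k, x k * Vale.Agent.P366.pd k g x = 0 := by
    rw [hg.hom.euler hg.sm hx]; simp
  have h2 : ∑ k, x k ^ 2 = ‖x‖ ^ 2 := by
    rw [EuclideanSpace.norm_sq_eq]; simp
  have e : ∀ k, x k / ‖x‖ ^ 2 * Rot k i g x =
      (x k ^ 2 * Vale.Agent.P366.pd i g x - x i * (x k * Vale.Agent.P366.pd k g x)) / ‖x‖ ^ 2 := by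
    intro k
    unfold Rot
    ring
  simp only [e, ← Finset.sum_div, Finset.sum_sub_distrib, ← Finset.mul_sum, ← Finset.sum_mul]
  rw [h1, h2]
  field_simp
  ring

lemma Good.pd {T : QA n → E n → ℝ} (hT : Good T) (i : Fin n) :
    Good fun h => Vale.Agent.P366.pd i (T h) := by
  induction hT with
  | zero =>
    have e : (fun (_ : QA n) => Vale.Agent.P366.pd i fun _ : E n => (0 : ℝ)) = fun _ _ => 0 := by
      funext h x
      exact Vale.Agent.P366.pd_const 0 x i
    rw [e]
    exact Good.zero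
  | @add T U h1 h2 g1 g2 =>
    have e : (fun h => Vale.Agent.P366.pd i fun x => T h x + U h x) =
        fun h x => Vale.Agent.P366.pd i (T h) x + Vale.Agent.P366.pd i (U h) x := by
      funext h x
      exact Vale.Agent.P366.pd_add ((h1.cf h).sm.differentiable (by simp) x)
        ((h2.cf h).sm.differentiable (by simp) x) i
    rw [e]
    exact g1.add g2
  | @base ψ hψ w =>
    have e : (fun h : QA n => Vale.Agent.P366.pd i fun x => ψ x * ((SA n).Rw w h : E n → ℝ) x) =
        fun h x => Vale.Agent.P366.pd i ψ x * ((SA n).Rw w h : E n → ℝ) x +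
          ∑ k, (ψ x * (x k / ‖x‖ ^ 2)) * ((SA n).Rw ((k, i) :: w) h : E n → ℝ) x := by
      funext h x
      by_cases hx : x = 0
      · subst hx
        have h1 : (fun x => ψ x * ((SA n).Rw w h : E n → ℝ) x) =ᶠ[𝓝 0] fun _ => (0 : ℝ) :=
          (hψ.ev zero_nAnn).mono fun y hy => by simp [hy]
        rw [Vale.Agent.P366.pd_congr h1 i, Vale.Agent.P366.pd_const, (hψ.pd i).z 0 zero_nAnn,
          hψ.z 0 zero_nAnn]
        simp
      · rw [Vale.Agent.P366.pd_mul (hψ.sm.differentiable (by simp) x)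
          (((SA n).Rw w h).2.sm.diff hx) i, pd_rot ((SA n).Rw w h).2 hx i, Finset.mul_sum]
        simp only [Rsys.Rw, mul_assoc]
        rw [add_comm]
        rfl
    rw [e]
    refine (Good.base (hψ.pd i) w).add (Good.sum _ fun k => Good.base (hψ.mulSm ?_) _)
    exact (Sm.coord k).div (Sm.norm.pow 2) fun x hx => pow_ne_zero 2 (norm_ne_zero_iff.2 hx)

lemma Good.pdl {T : QA n → E n → ℝ} (hT : Good T) :
    ∀ l : List (Fin n), Good fun h => pdl l (T h)
  | [] => hT
  | i :: l => (Good.pdl hT l).pd i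

/-- integrals over the annulus are bounded by integrals over the sphere -/
lemma ann_le {ψ : E n → ℝ} (hψ : Cf ψ) : ∃ M, 0 ≤ M ∧ ∀ g, Q g →
    ∫ x, |ψ x * g x| ≤ M * SI fun x => |g x| := by
  obtain ⟨M, hM⟩ := hψ.compact.exists_bound_of_continuous hψ.sm.continuous
  have hM0 : 0 ≤ M := (norm_nonneg _).trans (hM 0)
  refine ⟨2 ^ n * M, by positivity, fun g hg => ?_⟩
  have hI : Integrable fun x => |ψ x * g x| := (hψ.mulSm hg.sm).integrable.abs
  rw [Vale.Agent.P366.polar _ hI]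
  have hS : 0 ≤ SI fun x => |g x| := SI_nonneg fun x _ => abs_nonneg _
  have hpt : ∀ r : ℝ, 0 < r → sphI (fun x => |ψ x * g x|) r ≤
      if r ≤ 2 then M * SI (fun x => |g x|) else 0 := by
    intro r hr
    split_ifs with h2
    · unfold Vale.Agent.P366.sphI
      rw [← SI_cmul]
      unfold SI
      have hci : Integrable (fun θ : sphere (0 : E n) 1 => M * |g (θ : E n)|) (sphM n) :=
        (int_sph (f := fun x => M * |g x|) (continuousOn_const.mul hg.sm.contOn.abs))
      refine integral_mono_of_nonneg (Eventually.of_forall fun θ => abs_nonneg _) hci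
        (Eventually.of_forall fun θ => ?_)
      have hθ : (θ : E n) ≠ 0 := ne_zero_of_one (by simp)
      have h1 : g (r • (θ : E n)) = g θ := by
        rw [hg.hom _ hθ r hr]; simp
      simp only [h1, abs_mul]
      have := hM (r • (θ : E n))
      rw [Real.norm_eq_abs] at this
      exact mul_le_mul_of_nonneg_right this (abs_nonneg _)
    · unfold Vale.Agent.P366.sphI
      refine le_of_eq (integral_eq_zero_of_ae (Eventually.of_forall fun θ => ?_))
      have hn : ‖r • (θ : E n)‖ = r := Vale.Agent.P366.norm_smul_sph hr.le θ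
      have : r • (θ : E n) ∉ Ann n := by
        intro h
        have := h.2
        rw [hn] at this
        nlinarith
      simp [hψ.z _ this]
  have hn0 : ∀ r : ℝ, 0 ≤ sphI (fun x => |ψ x * g x|) r := fun r =>
    integral_nonneg fun θ => abs_nonneg _
  have hle : ∀ r ∈ Ioi (0 : ℝ), r ^ (n - 1) * sphI (fun x => |ψ x * g x|) r ≤
      (Ioc (0 : ℝ) 2).indicator (fun _ => 2 ^ (n - 1) * (M * SI (fun x => |g x|))) r := by
    intro r hr
    have hr0 : (0 : ℝ) < r := hr
    have h1 := hpt r hr0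
    by_cases h2 : r ≤ 2
    · rw [if_pos h2] at h1
      rw [indicator_of_mem (show r ∈ Ioc (0 : ℝ) 2 from ⟨hr0, h2⟩)]
      exact mul_le_mul (pow_le_pow_left₀ hr0.le h2 _) h1 (hn0 r) (by positivity)
    · rw [if_neg h2] at h1
      rw [indicator_of_notMem (fun h => h2 h.2)]
      have : sphI (fun x => |ψ x * g x|) r = 0 := le_antisymm h1 (hn0 r)
      rw [this, mul_zero]
  have hint : IntegrableOn
      ((Ioc (0 : ℝ) 2).indicator (fun _ => (2 : ℝ) ^ (n - 1) * (M * SI (fun x => |g x|))))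
      (Ioi 0) := by
    have h5 : IntegrableOn (fun _ : ℝ => (2 : ℝ) ^ (n - 1) * (M * SI (fun x => |g x|)))
        (Ioc (0 : ℝ) 2) := integrableOn_const (by simp) enorm_ne_top
    exact (h5.integrable_indicator measurableSet_Ioc).integrableOn
  have h3 : ∫ r in Ioi (0 : ℝ), r ^ (n - 1) * sphI (fun x => |ψ x * g x|) r ≤
      ∫ r in Ioi (0 : ℝ),
        (Ioc (0 : ℝ) 2).indicator (fun _ => (2 : ℝ) ^ (n - 1) * (M * SI (fun x => |g x|))) r := by
    refine integral_mono_of_nonneg ?_ hint (ae_restrict_of_forall_mem measurableSet_Ioi hle)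
    exact ae_restrict_of_forall_mem measurableSet_Ioi fun r hr =>
      mul_nonneg (pow_nonneg (le_of_lt hr) _) (hn0 r)
  refine h3.trans (le_of_eq ?_)
  have h6 : Ioi (0 : ℝ) ∩ Ioc (0 : ℝ) 2 = Ioc (0 : ℝ) 2 :=
    inter_eq_right.2 fun r hr => hr.1
  rw [setIntegral_indicator measurableSet_Ioc, h6, setIntegral_const]
  have h7 : n = (n - 1) + 1 := by
    have := Fact.out (p := 3 ≤ n)
    omega
  simp only [Measure.real, Real.volume_Ioc, sub_zero, smul_eq_mul]
  rw [ENNReal.toReal_ofReal (by norm_num)]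
  have h8 : (2 : ℝ) ^ n = 2 ^ (n - 1) * 2 := by
    conv_lhs => rw [h7]
    rw [pow_succ]
  rw [h8]
  ring

lemma Good.bdd {T : QA n → E n → ℝ} (hT : Good T) {h : ℕ → QA n} (hb : (SA n).Bd h) :
    ∃ C : ℝ, ∀ N, ∫ x, |T (h N) x| ≤ C := by
  induction hT with
  | zero => exact ⟨0, fun N => by simp⟩
  | @add T U h1 h2 g1 g2 =>
    obtain ⟨C, hC⟩ := g1
    obtain ⟨D, hD⟩ := g2
    refine ⟨C + D, fun N => ?_⟩
    have i1 : Integrable fun x => |T (h N) x| := (h1.cf (h N)).integrable.abs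
    have i2 : Integrable fun x => |U (h N) x| := (h2.cf (h N)).integrable.abs
    calc ∫ x, |T (h N) x + U (h N) x| ≤ ∫ x, (|T (h N) x| + |U (h N) x|) :=
          integral_mono ((h1.cf (h N)).add (h2.cf (h N))).integrable.abs (i1.add i2)
            fun x => abs_add_le _ _
      _ = (∫ x, |T (h N) x|) + ∫ x, |U (h N) x| := integral_add i1 i2
      _ ≤ C + D := add_le_add (hC N) (hD N)
  | @base ψ hψ w =>
    obtain ⟨M, hM0, hM⟩ := ann_le hψ
    obtain ⟨C, hC⟩ := hb w
    refine ⟨M * (om n + C), fun N => (hM _ ((SA n).Rw w (h N)).2).trans ?_⟩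
    refine mul_le_mul_of_nonneg_left ?_ hM0
    have hQ := ((SA n).Rw w (h N)).2
    have h1 := hC N
    have h2 : (SA n).I ((SA n).Rw w (h N) * (SA n).Rw w (h N)) =
        SI fun x => ((SA n).Rw w (h N) : E n → ℝ) x * ((SA n).Rw w (h N) : E n → ℝ) x := rfl
    rw [h2] at h1
    have hc := hQ.sm.contOn
    calc SI (fun x => |((SA n).Rw w (h N) : E n → ℝ) x|)
        ≤ SI (fun x => 1 + ((SA n).Rw w (h N) : E n → ℝ) x * ((SA n).Rw w (h N) : E n → ℝ) x) := by
          refine SI_mono hc.abs (continuousOn_const.add (hc.mul hc)) fun x _ => ?_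
          set a := ((SA n).Rw w (h N) : E n → ℝ) x
          rcases abs_cases a with ⟨h, _⟩ | ⟨h, _⟩ <;> rw [h] <;> nlinarith [sq_nonneg (a - 1), sq_nonneg (a + 1)]
      _ = om n + SI (fun x => ((SA n).Rw w (h N) : E n → ℝ) x * ((SA n).Rw w (h N) : E n → ℝ) x) := by
          exact SI_add (f := fun _ => (1 : ℝ)) continuousOn_const (hc.mul hc)
      _ ≤ om n + C := by linarith

omit [Fact (3 ≤ n)] in
/-- a cut-off function -/
lemma exists_cut : ∃ χ : E n → ℝ, Cf χ ∧ ∀ x, ‖x‖ = 1 → χ x = 1 := by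
  let φ : ContDiffBump (1 : ℝ) := ⟨1 / 4, 1 / 2, by norm_num, by norm_num⟩
  refine ⟨fun x => φ (‖x‖ ^ 2), ⟨φ.contDiff.comp (contDiff_norm_sq ℝ), fun x hx => ?_⟩,
    fun x hx => ?_⟩
  · refine φ.zero_of_le_dist ?_
    rw [Real.dist_eq]
    by_contra hlt
    push Not at hlt
    have h1 := abs_lt.1 hlt
    have h2 : φ.rOut = 1 / 2 := rfl
    rw [h2] at h1
    exact hx ⟨by linarith [h1.1], by linarith [h1.2]⟩
  · refine φ.one_of_mem_closedBall ?_
    rw [hx, one_pow]
    exact mem_closedBall_self φ.rIn_pos.le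

theorem sup_bound {h : ℕ → QA n} (hb : (SA n).Bd h) :
    ∃ C : ℝ, ∀ N, ∀ x : E n, ‖x‖ = 1 → |(h N : E n → ℝ) x| ≤ C := by
  obtain ⟨χ, hχ, h1⟩ := exists_cut (n := n)
  have hT : Good fun (h : QA n) x => χ x * ((SA n).Rw [] h : E n → ℝ) x := Good.base hχ []
  obtain ⟨C, hC⟩ := (hT.pdl (List.finRange n)).bdd hb
  refine ⟨C, fun N x hx => ?_⟩
  have h2 := sobolev (hT.cf (h N)).sm (hT.cf (h N)).compact x
  have h3 : χ x * ((SA n).Rw [] (h N) : E n → ℝ) x = (h N : E n → ℝ) x := by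
    rw [h1 x hx, one_mul]; rfl
  rw [h3] at h2
  exact h2.trans (hC N)

end Vale.Agent.P366.H353.N
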