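import Vale.Agent.P366.H353.N.Alg

/-! [A4], first part: the elementary Sobolev inequality `|u x| ≤ ∫ |∂_1 ⋯ ∂_n u|`. -/

open MeasureTheory Metric Filter Topology Set
open scoped ContDiff ENNReal

noncomputable section
namespace Vale.Agent.P366.H353.N

open Vale.Agent.P366 (sphI sphM pd E)

variable {n : ℕ}

/-- Iterated partial derivatives. -/
def pdl : List (Fin n) → (E n → ℝ) → E n → ℝ
  | [], f => f
  | i :: l, f => pd i (pdl l f)

lemma pd_contDiff {u : E n → ℝ} (hu : ContDiff ℝ ∞ u) (i : Fin n) : ContDiff ℝ ∞ (pd i u) :=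
  (hu.fderiv_right (m := ∞) (by simp)).clm_apply contDiff_const

lemma pd_compact {u : E n → ℝ} (hc : HasCompactSupport u) (i : Fin n) :
    HasCompactSupport (pd i u) :=
  hc.fderiv_apply (𝕜 := ℝ) _

lemma pdl_contDiff {u : E n → ℝ} (hu : ContDiff ℝ ∞ u) : ∀ l : List (Fin n), ContDiff ℝ ∞ (pdl l u)
  | [] => hu
  | i :: l => pd_contDiff (pdl_contDiff hu l) i

lemma pdl_compact {u : E n → ℝ} (hc : HasCompactSupport u) :
    ∀ l : List (Fin n), HasCompactSupport (pdl l u)
  | [] => hc
  | i :: l => pd_compact (pdl_compact hc l) i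

/-- the line through `y` in the direction `i` -/
lemma line_hasDerivAt (y : Fin n → ℝ) (i : Fin n) (t : ℝ) :
    HasDerivAt (fun s : ℝ => (WithLp.toLp 2 (Function.update y i s) : E n))
      (EuclideanSpace.single i (1 : ℝ)) t := by
  have h := hasDerivAt_update y i t
  have h2 := ((PiLp.continuousLinearEquiv 2 ℝ (fun _ : Fin n => ℝ)).symm :
    (Fin n → ℝ) →L[ℝ] E n).hasFDerivAt (x := Function.update y i t) |>.comp_hasDerivAt t h
  exact h2

lemma line_le {w : E n → ℝ} (hw : ContDiff ℝ ∞ w) (hc : HasCompactSupport w) (y : Fin n → ℝ)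
    (i : Fin n) : ‖w (WithLp.toLp 2 y)‖ₑ ≤
      ∫⁻ t, ‖pd i w (WithLp.toLp 2 (Function.update y i t))‖ₑ := by
  have hcl : Topology.IsClosedEmbedding
      (fun s : ℝ => (WithLp.toLp 2 (Function.update y i s) : E n)) :=
    (PiLp.homeomorph 2 (fun _ : Fin n => ℝ)).symm.isClosedEmbedding.comp
      (isClosedEmbedding_update y i)
  have hd : ContDiff ℝ 1 fun s : ℝ => (WithLp.toLp 2 (Function.update y i s) : E n) :=
    ((PiLp.continuousLinearEquiv 2 ℝ (fun _ : Fin n => ℝ)).symm.contDiff).comp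
      (contDiff_update 1 y i)
  have h := HasCompactSupport.enorm_le_lintegral_Ici_deriv
    (f := fun s : ℝ => w (WithLp.toLp 2 (Function.update y i s)))
    ((hw.of_le (by simp)).comp hd) (hc.comp_isClosedEmbedding hcl) (y i)
  rw [Function.update_eq_self] at h
  refine h.trans ((lintegral_mono fun t => le_of_eq ?_).trans
    (lintegral_mono' Measure.restrict_le_self le_rfl))
  congr 1
  have h1 := ((hw.differentiable (by simp)) (WithLp.toLp 2 (Function.update y i t))).hasFDerivAt
    |>.comp_hasDerivAt t (line_hasDerivAt y i t)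
  exact h1.deriv

lemma marg_le {u : E n → ℝ} (hu : ContDiff ℝ ∞ u) (hc : HasCompactSupport u) :
    ∀ (l : List (Fin n)), l.Nodup → ∀ y : Fin n → ℝ, ‖u (WithLp.toLp 2 y)‖ₑ ≤
      (∫⋯∫⁻_l.toFinset, (fun z : Fin n → ℝ => ‖pdl l u (WithLp.toLp 2 z)‖ₑ)
        ∂(fun _ : Fin n => (volume : Measure ℝ))) y
  | [], _, y => by simp [pdl]
  | i :: l, hl, y => by
    have h1 := marg_le hu hc l (List.nodup_cons.1 hl).2 y
    have hi : i ∉ l.toFinset := by simpa using (List.nodup_cons.1 hl).1
    rw [List.toFinset_cons, lmarginal_insert' _ ?_ hi]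
    · refine h1.trans ?_
      refine lmarginal_mono ?_ y
      intro z
      exact line_le (pdl_contDiff hu l) (pdl_compact hc l) z i
    · have : Continuous fun z : Fin n → ℝ => pdl (i :: l) u (WithLp.toLp 2 z) :=
        (pdl_contDiff hu (i :: l)).continuous.comp (PiLp.continuous_toLp 2 _)
      exact this.measurable.enorm

theorem sobolev {n : ℕ} {u : E n → ℝ} (hu : ContDiff ℝ ∞ u) (hc : HasCompactSupport u) (x : E n) :
    |u x| ≤ ∫ y, |pdl (List.finRange n) u y| := by
  have h := marg_le hu hc (List.finRange n) (List.nodup_finRange n) (WithLp.ofLp x)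
  have e1 : (List.finRange n).toFinset = Finset.univ := by
    ext i; simp
  rw [e1, lmarginal_univ] at h
  have hcont : Continuous (pdl (List.finRange n) u) := (pdl_contDiff hu _).continuous
  have h2 : ∫⁻ z : Fin n → ℝ, ‖pdl (List.finRange n) u (WithLp.toLp 2 z)‖ₑ =
      ∫⁻ y : E n, ‖pdl (List.finRange n) u y‖ₑ :=
    (PiLp.volume_preserving_toLp (Fin n)).lintegral_comp hcont.measurable.enorm
  have hint : Integrable (pdl (List.finRange n) u) :=
    hcont.integrable_of_hasCompactSupport (pdl_compact hc _)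
  have h3 : ‖u x‖ₑ ≤ ∫⁻ y : E n, ‖pdl (List.finRange n) u y‖ₑ := by
    rw [← h2]
    exact h
  rw [← ofReal_integral_norm_eq_lintegral_enorm hint, ← ofReal_norm] at h3
  rwa [ENNReal.ofReal_le_ofReal_iff (integral_nonneg fun _ => norm_nonneg _)] at h3

end Vale.Agent.P366.H353.N
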